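import Vale.Agent.P042.Typical

/-!
Certificates for graded sets: lists of pairs (residue, rank) together with the bit mask of the
squares modulo the modulus.
-/

open Finset

namespace Vale.Agent.P042

/-- The certificate check for graded residues modulo `m`, the bits of `mask` covering all squares. -/
def checkCert (m mask : ℕ) (E : List (ℕ × ℕ)) (h : ℕ) : Bool :=
  (List.range m).all (fun t => mask.testBit (t * t % m)) &&
    (E.map Prod.fst).Nodup &&
      E.all fun a => decide (a.1 < m) && decide (a.2 < h) && E.all fun b =>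
        a.1 == b.1 || decide (a.2 < b.2) || !mask.testBit ((b.1 + m - a.1) % m)

/-- The number of certificate entries of rank `i`. -/
def rankCount (E : List (ℕ × ℕ)) (i : ℕ) : ℕ := (E.filter fun e => e.2 == i).length

lemma rootFree_prime {p : ℕ} (hp : p.Prime) : RootFree p := fun _ h => hp.dvd_of_dvd_pow h

lemma rootFree_prod : ∀ ps : List ℕ, (∀ p ∈ ps, p.Prime) → ps.Nodup →
    0 < ps.prod ∧ RootFree ps.prod
  | [], _, _ => ⟨one_pos, fun n _ => one_dvd n⟩
  | p :: ps, hp, hnd => by
    rw [List.nodup_cons] at hnd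
    obtain ⟨h0, hR⟩ := rootFree_prod ps (fun q hq => hp q (List.mem_cons_of_mem _ hq)) hnd.2
    have hpp := hp p List.mem_cons_self
    rw [List.prod_cons]
    refine ⟨Nat.mul_pos hpp.pos h0, RootFree.mul (rootFree_prime hpp) hR ?_⟩
    refine Nat.Coprime.symm (Nat.coprime_list_prod_left_iff.2 fun q hq => ?_)
    exact (Nat.coprime_primes (hp q (List.mem_cons_of_mem _ hq)) hpp).2 fun e => hnd.1 (e ▸ hq)

/-- The meaning of a checked certificate. -/
lemma graded_of_check {m mask h : ℕ} {E : List (ℕ × ℕ)} (hc : checkCert m mask E h = true) :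
    ∃ (S : Finset ℕ) (r : ℕ → ℕ), Graded m S r ∧ (∀ a ∈ S, r a < h) ∧
      ∀ i, rankCount E i = (S.filter fun a => r a = i).card := by
  simp only [checkCert, Bool.and_eq_true, decide_eq_true_eq, List.all_eq_true, Bool.or_eq_true,
    beq_iff_eq, Bool.not_eq_true', List.mem_range] at hc
  obtain ⟨⟨hsq, hE⟩, hall⟩ := hc
  set r : ℕ → ℕ := fun a => ((E.find? fun e => e.1 == a).map Prod.snd).getD 0 with hr
  have hkey : ∀ e ∈ E, r e.1 = e.2 := by
    intro e he
    simp only [hr]
    cases hf : E.find? (fun x => x.1 == e.1) with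
    | none => exact absurd (List.find?_eq_none.1 hf e he) (by simp)
    | some x =>
      have hx := List.find?_some hf
      simp only [beq_iff_eq] at hx
      have := List.inj_on_of_nodup_map hE (List.mem_of_find?_eq_some hf) he hx
      simp [this]
  refine ⟨(E.map Prod.fst).toFinset, r, ⟨?_, ?_⟩, ?_, fun i => ?_⟩
  · simp only [List.mem_toFinset, List.mem_map]
    rintro _ ⟨e, he, rfl⟩
    exact (hall e he).1.1
  · simp only [List.mem_toFinset, List.mem_map]
    rintro _ ⟨a, ha, rfl⟩ _ ⟨b, hb, rfl⟩ hne ⟨n, hn⟩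
    rw [hkey a ha, hkey b hb]
    rcases (hall a ha).2 b hb with (h1 | h1) | h1
    · exact absurd h1 hne
    · exact h1
    · have ham := (hall a ha).1.1
      have hm : 0 < m := Nat.zero_lt_of_lt ham
      have h2 : n ^ 2 ≡ b.1 + m - a.1 [MOD m] := by
        refine Nat.ModEq.add_left_cancel' a.1 (hn.trans ?_)
        rw [show a.1 + (b.1 + m - a.1) = b.1 + m by omega]
        exact Nat.ModEq.symm (Nat.add_modEq_right)
      have h3 := hsq (n % m) (Nat.mod_lt _ hm)
      rw [← Nat.mul_mod, ← sq, h2, h1] at h3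
      exact absurd h3 (by simp)
  · simp only [List.mem_toFinset, List.mem_map]
    rintro _ ⟨e, he, rfl⟩
    rw [hkey e he]
    exact (hall e he).1.2
  · rw [List.filter_toFinset, List.toFinset_card_of_nodup (hE.filter _), List.filter_map,
      List.length_map, rankCount]
    refine congrArg List.length (List.filter_congr fun e he => ?_)
    rw [Bool.eq_iff_iff]
    simp [hkey e he]

/-- A certificate modulo a product `m` of distinct primes gives levels modulo `m * m`. -/
theorem levels_of_check {mask h : ℕ} {E : List (ℕ × ℕ)} (ps : List ℕ)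
    (hp : ∀ p ∈ ps, p.Prime) (hnd : ps.Nodup) (hc : checkCert ps.prod mask E h = true) :
    Levels (ps.prod * ps.prod) h (fun i => rankCount E i * ps.prod) := by
  obtain ⟨h0, hR⟩ := rootFree_prod ps hp hnd
  obtain ⟨S, r, hG, hr, hn⟩ := graded_of_check hc
  set g := ps.prod
  have hfib : ∀ i, ∀ p ∈ (S.filter fun a => r a = i) ×ˢ range g, (p.1 + g * p.2) % g = p.1 := by
    intro i p hp
    rw [Nat.add_mul_mod_self_left,
      Nat.mod_eq_of_lt (hG.1 _ (mem_filter.1 (mem_product.1 hp).1).1)]
  refine ⟨g, h0, rfl, fun x hx => hR x ((Dvd.intro g rfl).trans hx),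
    (S ×ˢ range g).image (fun p => p.1 + g * p.2), fun x => r (x % g), ?_, ?_, fun i _ => ?_⟩
  · exact graded_fibres h0 hR hG
  · simp only [mem_image, mem_product, mem_range]
    rintro _ ⟨⟨a, y⟩, ⟨ha, hy⟩, rfl⟩
    simpa [Nat.add_mul_mod_self_left, Nat.mod_eq_of_lt (hG.1 a ha)] using hr a ha
  · refine le_trans ?_ (card_le_card (s := ((S.filter fun a => r a = i) ×ˢ range g).image
      (fun p => p.1 + g * p.2)) ?_)
    · rw [card_image_of_injOn, card_product, card_range]
      · simp only [hn i, le_refl]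
      rintro ⟨a, y⟩ hp ⟨b, z⟩ hq he
      simp only [coe_product, Set.mem_prod, mem_coe, mem_filter] at hp hq
      obtain ⟨rfl, rfl⟩ := digits_unique (hG.1 a hp.1.1) (hG.1 b hq.1.1) he
      rfl
    · intro x hx
      simp only [mem_image] at hx
      obtain ⟨p, hp, rfl⟩ := hx
      refine mem_filter.2 ⟨mem_image.2 ⟨p, ?_, rfl⟩, ?_⟩
      · exact product_subset_product_left (filter_subset _ _) hp
      · show r ((p.1 + g * p.2) % g) = i
        rw [hfib i p hp]
        exact (mem_filter.1 (mem_product.1 hp).1).2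

/-- A certificate modulo a square `N * N` gives levels modulo `N * N`. -/
theorem levels_of_check_square {mask h : ℕ} {E : List (ℕ × ℕ)} (N : ℕ) (hN : 0 < N)
    (hc : checkCert (N * N) mask E h = true) : Levels (N * N) h (rankCount E) := by
  obtain ⟨S, r, hG, hr, hn⟩ := graded_of_check hc
  refine ⟨N, hN, rfl, fun x hx => ?_, S, r, hG, hr, fun i _ => (hn i).le⟩
  rw [← sq] at hx
  exact (Nat.pow_dvd_pow_iff two_ne_zero).1 hx

end Vale.Agent.P042
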