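import Vale.Agent.P042.Certificate

/-!
Certificates: graded residue sets, their rank frequencies and gains.
-/

open Finset

namespace Vale.Agent.P042

/-- Residues and ranks modulo 103. -/
def cert0 : List (ℕ × ℕ) :=
    [(5, 0), (9, 3), (13, 10), (18, 9), (23, 4), (24, 8), (55, 7), (61, 5), (66, 1), (98, 2),
     (102, 6)]

theorem achieved0 : Achieved 3783 5000 3000
    ((([103] : List ℕ).prod * ([103] : List ℕ).prod) ^ 867) 121028 1 :=
  Levels.achieved_full (levels_of_check (mask := 1760368345969468176824550810519) (h := 11) (E := cert0) [103]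
      (by norm_num) (by decide) (by decide +kernel)) (by norm_num)
    (by decide +kernel) (by decide +kernel)

/-- Residues and ranks modulo 71. -/
def cert1 : List (ℕ × ℕ) :=
    [(19, 5), (32, 1), (41, 2), (47, 4), (54, 0), (56, 6), (57, 7), (59, 8), (70, 3)]

theorem achieved1 : Achieved 3783 5000 3000
    ((([71] : List ℕ).prod * ([71] : List ℕ).prod) ^ 946) 65624 1 :=
  Levels.achieved_full (levels_of_check (mask := 20052041432995567487) (h := 9) (E := cert1) [71]
      (by norm_num) (by decide) (by decide +kernel)) (by norm_num)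
    (by decide +kernel) (by decide +kernel)

/-- Residues and ranks modulo 59. -/
def cert2 : List (ℕ × ℕ) :=
    [(6, 1), (22, 2), (30, 0), (31, 4), (34, 7), (42, 3), (47, 6), (51, 8), (57, 5)]

theorem achieved2 : Achieved 3783 5000 3000
    ((([59] : List ℕ).prod * ([59] : List ℕ).prod) ^ 946) 714002 1 :=
  Levels.achieved_full (levels_of_check (mask := 156326468341437115) (h := 9) (E := cert2) [59]
      (by norm_num) (by decide) (by decide +kernel)) (by norm_num)
    (by decide +kernel) (by decide +kernel)

/-- Residues and ranks modulo 43. -/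
def cert3 : List (ℕ × ℕ) :=
    [(2, 2), (4, 1), (9, 0), (13, 6), (18, 5), (25, 3), (40, 4)]

theorem achieved3 : Achieved 3783 5000 3000
    ((([43] : List ℕ).prod * ([43] : List ℕ).prod) ^ 1068) 120658 1 :=
  Levels.achieved_full (levels_of_check (mask := 3678700564051) (h := 7) (E := cert3) [43]
      (by norm_num) (by decide) (by decide +kernel)) (by norm_num)
    (by decide +kernel) (by decide +kernel)

/-- Residues and ranks modulo 31. -/
def cert4 : List (ℕ × ℕ) :=
    [(8, 0), (10, 1), (12, 4), (18, 3), (24, 2), (26, 5), (28, 6)]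

theorem achieved4 : Achieved 3783 5000 3000
    ((([31] : List ℕ).prod * ([31] : List ℕ).prod) ^ 1068) 1414356 1 :=
  Levels.achieved_full (levels_of_check (mask := 303908791) (h := 7) (E := cert4) [31]
      (by norm_num) (by decide) (by decide +kernel)) (by norm_num)
    (by decide +kernel) (by decide +kernel)

/-- Residues and ranks modulo 19. -/
def cert5 : List (ℕ × ℕ) :=
    [(0, 0), (4, 4), (6, 2), (16, 1), (17, 3)]

theorem achieved5 : Achieved 3783 5000 3000
    ((([19] : List ℕ).prod * ([19] : List ℕ).prod) ^ 1292) 916617 1 :=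
  Levels.achieved_full (levels_of_check (mask := 199411) (h := 5) (E := cert5) [19]
      (by norm_num) (by decide) (by decide +kernel)) (by norm_num)
    (by decide +kernel) (by decide +kernel)

/-- Residues and ranks modulo 11. -/
def cert6 : List (ℕ × ℕ) :=
    [(0, 2), (6, 1), (8, 0), (9, 3)]

theorem achieved6 : Achieved 3783 5000 3000
    ((([11] : List ℕ).prod * ([11] : List ℕ).prod) ^ 1500) 1684644 1 :=
  Levels.achieved_full (levels_of_check (mask := 571) (h := 4) (E := cert6) [11]
      (by norm_num) (by decide) (by decide +kernel)) (by norm_num)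
    (by decide +kernel) (by decide +kernel)

/-- Residues and ranks modulo 7. -/
def cert7 : List (ℕ × ℕ) :=
    [(3, 0), (4, 1), (5, 2)]

theorem achieved7 : Achieved 3783 5000 3000
    ((([7] : List ℕ).prod * ([7] : List ℕ).prod) ^ 1892) 1364393 1 :=
  Levels.achieved_full (levels_of_check (mask := 23) (h := 3) (E := cert7) [7]
      (by norm_num) (by decide) (by decide +kernel)) (by norm_num)
    (by decide +kernel) (by decide +kernel)

/-- Residues and ranks modulo 115. -/
def cert8 : List (ℕ × ℕ) :=
    [(10, 2), (15, 1), (29, 0), (46, 5), (57, 1), (58, 2), (64, 3), (65, 4), (76, 0), (93, 5),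
     (107, 4), (112, 3)]

theorem achieved8 : Achieved 3783 5000 3000
    ((([5, 23] : List ℕ).prod * ([5, 23] : List ℕ).prod) ^ 1160) 416767 1 :=
  Levels.achieved_full (levels_of_check (mask := 1362863085675154517642699494982227) (h := 6) (E := cert8) [5, 23]
      (by norm_num) (by decide) (by decide +kernel)) (by norm_num)
    (by decide +kernel) (by decide +kernel)

/-- Residues and ranks modulo 3. -/
def cert9 : List (ℕ × ℕ) :=
    [(0, 0), (1, 1)]

theorem achieved9 : Achieved 3783 5000 3000
    ((([3] : List ℕ).prod * ([3] : List ℕ).prod) ^ 3000) 2798955 1 :=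
  Levels.achieved_full (levels_of_check (mask := 3) (h := 2) (E := cert9) [3]
      (by norm_num) (by decide) (by decide +kernel)) (by norm_num)
    (by decide +kernel) (by decide +kernel)

/-- Residues and ranks modulo 16. -/
def cert10 : List (ℕ × ℕ) :=
    [(1, 5), (3, 2), (4, 3), (6, 0), (8, 4), (9, 5), (11, 0), (12, 5), (14, 0), (15, 1)]

/-- Rank frequencies for the certificate modulo 16. -/
def freq10 (i : ℕ) : ℕ :=
    [417, 119, 119, 119, 118, 417].getD i 0

theorem achieved10 : Achieved 3783 5000 3000
    ((4 * 4) ^ 1309) 1787059 1 :=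
  Levels.achieved (levels_of_check_square (mask := 531) (h := 6) (E := cert10) 4 (by norm_num)
      (by decide +kernel)) (by norm_num) freq10
    (by decide +kernel) (by decide +kernel) (by decide +kernel)

theorem exists_subsets_of_certificates :
    ∃ c : ℝ, 0 < c ∧ ∀ N : ℕ, 1 ≤ N → ∃ A : Finset ℕ, A ⊆ Icc 1 N ∧ SqFreeDiff A ∧
      c * (N : ℝ) ^ (((3783 : ℕ) : ℝ) / (5000 : ℕ)) ≤ A.card := by
  have a0 := achieved0
  have a1 := a0.mul achieved1
    (Nat.Coprime.pow 867 946 (by norm_num : Nat.Coprime 10609 5041))
  have a2 := a1.mul achieved2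
    (Nat.Coprime.mul_left
      (Nat.Coprime.pow 867 946 (by norm_num : Nat.Coprime 10609 3481))
      (Nat.Coprime.pow 946 946 (by norm_num : Nat.Coprime 5041 3481)))
  have a3 := a2.mul achieved3
    (Nat.Coprime.mul_left
      (Nat.Coprime.mul_left
      (Nat.Coprime.pow 867 1068 (by norm_num : Nat.Coprime 10609 1849))
      (Nat.Coprime.pow 946 1068 (by norm_num : Nat.Coprime 5041 1849)))
      (Nat.Coprime.pow 946 1068 (by norm_num : Nat.Coprime 3481 1849)))
  have a4 := a3.mul achieved4
    (Nat.Coprime.mul_left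
      (Nat.Coprime.mul_left
      (Nat.Coprime.mul_left
      (Nat.Coprime.pow 867 1068 (by norm_num : Nat.Coprime 10609 961))
      (Nat.Coprime.pow 946 1068 (by norm_num : Nat.Coprime 5041 961)))
      (Nat.Coprime.pow 946 1068 (by norm_num : Nat.Coprime 3481 961)))
      (Nat.Coprime.pow 1068 1068 (by norm_num : Nat.Coprime 1849 961)))
  have a5 := a4.mul achieved5
    (Nat.Coprime.mul_left
      (Nat.Coprime.mul_left
      (Nat.Coprime.mul_left
      (Nat.Coprime.mul_left
      (Nat.Coprime.pow 867 1292 (by norm_num : Nat.Coprime 10609 361))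
      (Nat.Coprime.pow 946 1292 (by norm_num : Nat.Coprime 5041 361)))
      (Nat.Coprime.pow 946 1292 (by norm_num : Nat.Coprime 3481 361)))
      (Nat.Coprime.pow 1068 1292 (by norm_num : Nat.Coprime 1849 361)))
      (Nat.Coprime.pow 1068 1292 (by norm_num : Nat.Coprime 961 361)))
  have a6 := a5.mul achieved6
    (Nat.Coprime.mul_left
      (Nat.Coprime.mul_left
      (Nat.Coprime.mul_left
      (Nat.Coprime.mul_left
      (Nat.Coprime.mul_left
      (Nat.Coprime.pow 867 1500 (by norm_num : Nat.Coprime 10609 121))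
      (Nat.Coprime.pow 946 1500 (by norm_num : Nat.Coprime 5041 121)))
      (Nat.Coprime.pow 946 1500 (by norm_num : Nat.Coprime 3481 121)))
      (Nat.Coprime.pow 1068 1500 (by norm_num : Nat.Coprime 1849 121)))
      (Nat.Coprime.pow 1068 1500 (by norm_num : Nat.Coprime 961 121)))
      (Nat.Coprime.pow 1292 1500 (by norm_num : Nat.Coprime 361 121)))
  have a7 := a6.mul achieved7
    (Nat.Coprime.mul_left
      (Nat.Coprime.mul_left
      (Nat.Coprime.mul_left
      (Nat.Coprime.mul_left
      (Nat.Coprime.mul_left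
      (Nat.Coprime.mul_left
      (Nat.Coprime.pow 867 1892 (by norm_num : Nat.Coprime 10609 49))
      (Nat.Coprime.pow 946 1892 (by norm_num : Nat.Coprime 5041 49)))
      (Nat.Coprime.pow 946 1892 (by norm_num : Nat.Coprime 3481 49)))
      (Nat.Coprime.pow 1068 1892 (by norm_num : Nat.Coprime 1849 49)))
      (Nat.Coprime.pow 1068 1892 (by norm_num : Nat.Coprime 961 49)))
      (Nat.Coprime.pow 1292 1892 (by norm_num : Nat.Coprime 361 49)))
      (Nat.Coprime.pow 1500 1892 (by norm_num : Nat.Coprime 121 49)))
  have a8 := a7.mul achieved8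
    (Nat.Coprime.mul_left
      (Nat.Coprime.mul_left
      (Nat.Coprime.mul_left
      (Nat.Coprime.mul_left
      (Nat.Coprime.mul_left
      (Nat.Coprime.mul_left
      (Nat.Coprime.mul_left
      (Nat.Coprime.pow 867 1160 (by norm_num : Nat.Coprime 10609 13225))
      (Nat.Coprime.pow 946 1160 (by norm_num : Nat.Coprime 5041 13225)))
      (Nat.Coprime.pow 946 1160 (by norm_num : Nat.Coprime 3481 13225)))
      (Nat.Coprime.pow 1068 1160 (by norm_num : Nat.Coprime 1849 13225)))
      (Nat.Coprime.pow 1068 1160 (by norm_num : Nat.Coprime 961 13225)))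
      (Nat.Coprime.pow 1292 1160 (by norm_num : Nat.Coprime 361 13225)))
      (Nat.Coprime.pow 1500 1160 (by norm_num : Nat.Coprime 121 13225)))
      (Nat.Coprime.pow 1892 1160 (by norm_num : Nat.Coprime 49 13225)))
  have a9 := a8.mul achieved9
    (Nat.Coprime.mul_left
      (Nat.Coprime.mul_left
      (Nat.Coprime.mul_left
      (Nat.Coprime.mul_left
      (Nat.Coprime.mul_left
      (Nat.Coprime.mul_left
      (Nat.Coprime.mul_left
      (Nat.Coprime.mul_left
      (Nat.Coprime.pow 867 3000 (by norm_num : Nat.Coprime 10609 9))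
      (Nat.Coprime.pow 946 3000 (by norm_num : Nat.Coprime 5041 9)))
      (Nat.Coprime.pow 946 3000 (by norm_num : Nat.Coprime 3481 9)))
      (Nat.Coprime.pow 1068 3000 (by norm_num : Nat.Coprime 1849 9)))
      (Nat.Coprime.pow 1068 3000 (by norm_num : Nat.Coprime 961 9)))
      (Nat.Coprime.pow 1292 3000 (by norm_num : Nat.Coprime 361 9)))
      (Nat.Coprime.pow 1500 3000 (by norm_num : Nat.Coprime 121 9)))
      (Nat.Coprime.pow 1892 3000 (by norm_num : Nat.Coprime 49 9)))
      (Nat.Coprime.pow 1160 3000 (by norm_num : Nat.Coprime 13225 9)))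
  have a10 := a9.mul achieved10
    (Nat.Coprime.mul_left
      (Nat.Coprime.mul_left
      (Nat.Coprime.mul_left
      (Nat.Coprime.mul_left
      (Nat.Coprime.mul_left
      (Nat.Coprime.mul_left
      (Nat.Coprime.mul_left
      (Nat.Coprime.mul_left
      (Nat.Coprime.mul_left
      (Nat.Coprime.pow 867 1309 (by norm_num : Nat.Coprime 10609 16))
      (Nat.Coprime.pow 946 1309 (by norm_num : Nat.Coprime 5041 16)))
      (Nat.Coprime.pow 946 1309 (by norm_num : Nat.Coprime 3481 16)))
      (Nat.Coprime.pow 1068 1309 (by norm_num : Nat.Coprime 1849 16)))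
      (Nat.Coprime.pow 1068 1309 (by norm_num : Nat.Coprime 961 16)))
      (Nat.Coprime.pow 1292 1309 (by norm_num : Nat.Coprime 361 16)))
      (Nat.Coprime.pow 1500 1309 (by norm_num : Nat.Coprime 121 16)))
      (Nat.Coprime.pow 1892 1309 (by norm_num : Nat.Coprime 49 16)))
      (Nat.Coprime.pow 1160 1309 (by norm_num : Nat.Coprime 13225 16)))
      (Nat.Coprime.pow 3000 1309 (by norm_num : Nat.Coprime 9 16)))
  exact a10.exists_subsets (by decide +kernel) (by norm_num) (s := 5) (by norm_num)
    (by norm_num)

end Vale.Agent.P042
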